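import Mathlib
import Vale.Agent.P353.BFSS

/-! # P353: the parity (chirality) operator of the Clifford module of a BFSS model -/

namespace Vale.Agent.P353.H839

open Vale.Agent.P353

section Fd

variable {N d : ℕ} {F : Type*} [NormedAddCommGroup F] [InnerProductSpace ℂ F]
  (M : BFSS.Model N d F)

/-- the span of the products of a list of generators applied to `v` -/
noncomputable def pyGen (v : F) : List (Fin 16 × Fin d) → Submodule ℂ F
  | [] => Submodule.span ℂ {v}
  | a :: l => pyGen v l ⊔ (pyGen v l).map (M.θ a.1 a.2 : F →ₗ[ℂ] F)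

theorem pyGen_fd (v : F) (l : List (Fin 16 × Fin d)) : FiniteDimensional ℂ (pyGen M v l) := by
  induction l with
  | nil => exact FiniteDimensional.span_singleton ℂ v
  | cons a l ih =>
    rw [pyGen]
    infer_instance

theorem mem_pyGen (v : F) (l : List (Fin 16 × Fin d)) : v ∈ pyGen M v l := by
  induction l with
  | nil => exact Submodule.mem_span_singleton_self v
  | cons a l ih => exact Submodule.mem_sup_left ih

theorem py_theta_sq (α : Fin 16) (A : Fin d) (w : F) :
    M.θ α A (M.θ α A w) = (1 / 2 : ℂ) • w := by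
  have h := M.θ_anticomm α A α A w
  rw [if_pos ⟨rfl, rfl⟩] at h
  conv_rhs => rw [← h]
  rw [smul_add, ← add_smul]
  norm_num

theorem pyGen_inv (v : F) (l : List (Fin 16 × Fin d)) :
    ∀ b ∈ l, ∀ w ∈ pyGen M v l, M.θ b.1 b.2 w ∈ pyGen M v l := by
  induction l with
  | nil => intro b hb; simp at hb
  | cons a l ih =>
    intro b hb w hw
    rw [pyGen, Submodule.mem_sup] at hw
    obtain ⟨w1, hw1, w2', hw2', rfl⟩ := hw
    obtain ⟨w2, hw2, rfl⟩ := Submodule.mem_map.mp hw2'
    rw [map_add]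
    rw [pyGen]
    change M.θ b.1 b.2 w1 + M.θ b.1 b.2 (M.θ a.1 a.2 w2) ∈ _
    by_cases hba : b = a
    · subst hba
      rw [py_theta_sq]
      refine Submodule.add_mem _ ?_ ?_
      · exact Submodule.mem_sup_right (Submodule.mem_map.mpr ⟨w1, hw1, rfl⟩)
      · exact Submodule.mem_sup_left (Submodule.smul_mem _ _ hw2)
    · have hbl : b ∈ l := by
        rcases List.mem_cons.mp hb with h | h
        · exact absurd h hba
        · exact h
      have h := M.θ_anticomm b.1 b.2 a.1 a.2 w2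
      have hne : ¬ (b.1 = a.1 ∧ b.2 = a.2) := fun hh => hba (Prod.ext hh.1 hh.2)
      rw [if_neg hne] at h
      have h2 : M.θ b.1 b.2 (M.θ a.1 a.2 w2) = -(M.θ a.1 a.2 (M.θ b.1 b.2 w2)) :=
        eq_neg_of_add_eq_zero_left h
      rw [h2]
      refine Submodule.add_mem _ ?_ (Submodule.neg_mem _ ?_)
      · exact Submodule.mem_sup_left (ih b hbl w1 hw1)
      · exact Submodule.mem_sup_right (Submodule.mem_map.mpr ⟨_, ih b hbl w2 hw2, rfl⟩)

include M in
/-- the Clifford module of a model is finite dimensional. -/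
theorem py_fd : FiniteDimensional ℂ F := by
  obtain ⟨v, hv⟩ := M.nontrivial
  set l := (Finset.univ : Finset (Fin 16 × Fin d)).toList with hl
  have hinv : ∀ α A, ∀ w ∈ pyGen M v l, M.θ α A w ∈ pyGen M v l := by
    intro α A w hw
    exact pyGen_inv M v l (α, A) (by rw [hl, Finset.mem_toList]; exact Finset.mem_univ _) w hw
  rcases M.θ_irreducible _ hinv with h | h
  · exfalso
    have := mem_pyGen M v l
    rw [h, Submodule.mem_bot] at this
    exact hv this
  · have h1 := pyGen_fd M v l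
    rw [h] at h1
    exact Module.finite_def.mpr ((Submodule.fg_iff_finiteDimensional _).mpr h1)

/-- Schur's lemma for the Clifford module -/
theorem py_schur (X : F →L[ℂ] F) (hX : ∀ α A v, X (M.θ α A v) = M.θ α A (X v)) :
    ∃ c : ℂ, ∀ v, X v = c • v := by
  have hfd := py_fd M
  obtain ⟨v0, hv0⟩ := M.nontrivial
  have hnt : Nontrivial F := ⟨v0, 0, hv0⟩
  obtain ⟨c, hc⟩ := Module.End.exists_eigenvalue (X : F →ₗ[ℂ] F)
  have hinv : ∀ α A, ∀ v ∈ Module.End.eigenspace (X : F →ₗ[ℂ] F) c,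
      M.θ α A v ∈ Module.End.eigenspace (X : F →ₗ[ℂ] F) c := by
    intro α A v hv
    rw [Module.End.mem_eigenspace_iff] at hv ⊢
    have h1 : X v = c • v := hv
    change X (M.θ α A v) = c • M.θ α A v
    rw [hX, h1, map_smul]
  rcases M.θ_irreducible _ hinv with h | h
  · exact absurd h hc
  · refine ⟨c, fun v => ?_⟩
    have h2 : v ∈ Module.End.eigenspace (X : F →ₗ[ℂ] F) c := by
      rw [h]; exact Submodule.mem_top
    exact Module.End.mem_eigenspace_iff.mp h2

end Fd

section Cliff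

variable {N d : ℕ} {F : Type*} [NormedAddCommGroup F] [InnerProductSpace ℂ F]
  (M : BFSS.Model N d F)

/-- the normalised Clifford generators -/
noncomputable def pc (a : Fin 16 × Fin d) : F →L[ℂ] F := ((Real.sqrt 2 : ℝ) : ℂ) • M.θ a.1 a.2

theorem pc_apply (a : Fin 16 × Fin d) (v : F) :
    pc M a v = ((Real.sqrt 2 : ℝ) : ℂ) • M.θ a.1 a.2 v := rfl

theorem sq2 : ((Real.sqrt 2 : ℝ) : ℂ) * ((Real.sqrt 2 : ℝ) : ℂ) = 2 := by
  rw [← Complex.ofReal_mul, Real.mul_self_sqrt (by norm_num)]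
  norm_num

theorem pc_sq (a : Fin 16 × Fin d) (v : F) : pc M a (pc M a v) = v := by
  rw [pc_apply, pc_apply, map_smul, smul_smul, sq2, py_theta_sq, smul_smul]
  norm_num

theorem pc_anti {a b : Fin 16 × Fin d} (h : a ≠ b) (v : F) :
    pc M a (pc M b v) = -pc M b (pc M a v) := by
  have h1 := M.θ_anticomm a.1 a.2 b.1 b.2 v
  rw [if_neg (fun hh => h (Prod.ext hh.1 hh.2))] at h1
  have h2 := eq_neg_of_add_eq_zero_left h1
  rw [pc_apply, pc_apply, pc_apply, pc_apply, map_smul, map_smul, h2, smul_neg, smul_neg]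

theorem pc_sa (a : Fin 16 × Fin d) (v w : F) :
    inner ℂ (pc M a v) w = inner ℂ v (pc M a w) := by
  rw [pc_apply, pc_apply, inner_smul_left, inner_smul_right, M.θ_selfAdjoint, Complex.conj_ofReal]

theorem pc_iso (a : Fin 16 × Fin d) (v w : F) :
    inner ℂ (pc M a v) (pc M a w) = inner ℂ v w := by
  rw [pc_sa, pc_sq]

/-- the product of the generators of a list -/
noncomputable def pG : List (Fin 16 × Fin d) → F →L[ℂ] F
  | [] => ContinuousLinearMap.id ℂ F
  | a :: l => (pc M a).comp (pG l)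

theorem pG_nil (v : F) : pG M [] v = v := rfl

theorem pG_cons (a : Fin 16 × Fin d) (l : List (Fin 16 × Fin d)) (v : F) :
    pG M (a :: l) v = pc M a (pG M l v) := rfl

theorem pG_iso (l : List (Fin 16 × Fin d)) (v w : F) :
    inner ℂ (pG M l v) (pG M l w) = inner ℂ v w := by
  induction l with
  | nil => rfl
  | cons a l ih => rw [pG_cons, pG_cons, pc_iso, ih]

theorem pG_not_mem (b : Fin 16 × Fin d) (l : List (Fin 16 × Fin d)) (hb : b ∉ l) (v : F) :
    pc M b (pG M l v) = ((-1 : ℂ) ^ l.length) • pG M l (pc M b v) := by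
  induction l with
  | nil => simp [pG_nil]
  | cons a l ih =>
    have h1 : b ≠ a := fun h => hb (by rw [h]; exact List.mem_cons_self)
    have h2 : b ∉ l := fun h => hb (List.mem_cons_of_mem _ h)
    rw [pG_cons, pG_cons, pc_anti M h1, ih h2, map_smul, List.length_cons, pow_succ, mul_neg_one,
      neg_smul]

theorem pG_mem (b : Fin 16 × Fin d) (l : List (Fin 16 × Fin d)) (hl : l.Nodup) (hb : b ∈ l)
    (v : F) : pc M b (pG M l v) = -(((-1 : ℂ) ^ l.length) • pG M l (pc M b v)) := by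
  induction l with
  | nil => exact absurd hb (List.not_mem_nil)
  | cons a l ih =>
    rw [List.nodup_cons] at hl
    rcases List.mem_cons.mp hb with h | h
    · subst h
      rw [pG_cons, pG_cons, pG_not_mem M b l hl.1, map_smul, List.length_cons, pow_succ,
        mul_neg_one, neg_smul, neg_neg]
    · have h1 : b ≠ a := fun hh => hl.1 (by rw [← hh]; exact h)
      rw [pG_cons, pG_cons, pc_anti M h1, ih hl.2 h, map_neg, map_smul, neg_neg, List.length_cons,
        pow_succ, mul_neg_one, neg_smul, neg_neg]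

/-- the unnormalised parity -/
noncomputable def pG0 : F →L[ℂ] F := pG M (Finset.univ : Finset (Fin 16 × Fin d)).toList

theorem pG0_anti (a : Fin 16 × Fin d) (v : F) : pc M a (pG0 M v) = -pG0 M (pc M a v) := by
  have h1 : (Finset.univ : Finset (Fin 16 × Fin d)).toList.length = 16 * d := by
    rw [Finset.length_toList, Finset.card_univ, Fintype.card_prod, Fintype.card_fin,
      Fintype.card_fin]
  have h2 : ((-1 : ℂ)) ^ (16 * d) = 1 := by
    rw [pow_mul]
    norm_num
  rw [pG0, pG_mem M a _ (Finset.nodup_toList _) (by rw [Finset.mem_toList]; exact Finset.mem_univ _),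
    h1, h2, one_smul]

theorem pG0_theta (α : Fin 16) (A : Fin d) (v : F) :
    pG0 M (M.θ α A v) = -M.θ α A (pG0 M v) := by
  have h := pG0_anti M (α, A) v
  rw [pc_apply, pc_apply, map_smul, ← smul_neg] at h
  have h2 : ((Real.sqrt 2 : ℝ) : ℂ) ≠ 0 := by
    intro h0
    have := sq2
    rw [h0] at this
    norm_num at this
  have h3 := smul_right_injective F h2 h
  rw [h3, neg_neg]

/-- a self-adjoint involution that anticommutes with the generators, unique up to scalars -/
theorem py_exists : ∃ Γ : F →L[ℂ] F, (∀ v, Γ (Γ v) = v) ∧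
    (∀ v w, inner ℂ (Γ v) w = inner ℂ v (Γ w)) ∧
    (∀ α A v, Γ (M.θ α A v) = -M.θ α A (Γ v)) ∧
    ∀ Γ' : F →L[ℂ] F, (∀ α A v, Γ' (M.θ α A v) = -M.θ α A (Γ' v)) → ∃ c : ℂ, Γ' = c • Γ := by
  obtain ⟨v0, hv0⟩ := M.nontrivial
  obtain ⟨l, hl⟩ := py_schur M ((pG0 M).comp (pG0 M)) (fun α A v => by
    change pG0 M (pG0 M (M.θ α A v)) = M.θ α A (pG0 M (pG0 M v))
    rw [pG0_theta, map_neg, pG0_theta, neg_neg])
  have hl2 : ∀ v, pG0 M (pG0 M v) = l • v := hl
  have hiso : ∀ v w, inner ℂ (pG0 M v) (pG0 M w) = inner ℂ v w := pG_iso M _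
  have hl1 : (starRingEnd ℂ) l * l = 1 := by
    have h1 : inner ℂ (pG0 M (pG0 M v0)) (pG0 M (pG0 M v0)) = inner ℂ v0 v0 := by
      rw [hiso, hiso]
    rw [hl2, inner_smul_left, inner_smul_right, ← mul_assoc] at h1
    have h2 : inner ℂ v0 v0 ≠ 0 := inner_self_ne_zero.mpr hv0
    exact mul_right_cancel₀ h2 (by rw [h1, one_mul])
  have hl0 : l ≠ 0 := by
    rintro rfl
    simp at hl1
  obtain ⟨m, hm⟩ : ∃ m : ℂ, m ^ 2 = l⁻¹ := by
    obtain ⟨m, hm⟩ := IsSquare.exists_sq l⁻¹ (IsAlgClosed.exists_eq_mul_self _)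
    exact ⟨m, hm.symm⟩
  have hmm : (starRingEnd ℂ) m * m = 1 := by
    have h1 : ((starRingEnd ℂ) m * m) ^ 2 = 1 := by
      rw [mul_pow, ← map_pow, hm, map_inv₀, ← mul_inv, hl1, inv_one]
    have h2 : (starRingEnd ℂ) m * m = ((Complex.normSq m : ℝ) : ℂ) := by
      rw [mul_comm, Complex.mul_conj]
    rw [h2] at h1 ⊢
    have h3 : Complex.normSq m ^ 2 = 1 := by exact_mod_cast h1
    have h4 : 0 ≤ Complex.normSq m := Complex.normSq_nonneg m
    have h5 : Complex.normSq m = 1 := by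
      nlinarith [sq_nonneg (Complex.normSq m - 1)]
    rw [h5]
    norm_num
  have hsq : ∀ v, (m • pG0 M) ((m • pG0 M) v) = v := by
    intro v
    change m • pG0 M (m • pG0 M v) = v
    rw [map_smul, hl2, smul_smul, smul_smul, ← pow_two, hm, inv_mul_cancel₀ hl0, one_smul]
  have hiso2 : ∀ v w, inner ℂ ((m • pG0 M) v) ((m • pG0 M) w) = inner ℂ v w := by
    intro v w
    change inner ℂ (m • pG0 M v) (m • pG0 M w) = inner ℂ v w
    rw [inner_smul_left, inner_smul_right, ← mul_assoc, hmm, one_mul, hiso]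
  have hanti : ∀ α A v, (m • pG0 M) (M.θ α A v) = -M.θ α A ((m • pG0 M) v) := by
    intro α A v
    change m • pG0 M (M.θ α A v) = -M.θ α A (m • pG0 M v)
    rw [pG0_theta, map_smul, smul_neg]
  refine ⟨m • pG0 M, hsq, ?_, hanti, ?_⟩
  · intro v w
    rw [← hiso2 v, hsq]
  · intro X hX
    obtain ⟨c, hc⟩ := py_schur M (X.comp (m • pG0 M)) (fun α A v => by
      change X ((m • pG0 M) (M.θ α A v)) = M.θ α A (X ((m • pG0 M) v))
      rw [hanti, map_neg, hX, neg_neg])
    refine ⟨c, ?_⟩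
    ext v
    have h1 := hc ((m • pG0 M) v)
    have h2 : X ((m • pG0 M) ((m • pG0 M) v)) = c • (m • pG0 M) v := h1
    rw [hsq] at h2
    rw [h2]
    rfl

end Cliff

section Conj

variable {N d : ℕ} {F : Type*} [NormedAddCommGroup F] [InnerProductSpace ℂ F]
  (M : BFSS.Model N d F)

theorem pS_inj (U : BFSS.SU N) {v : F} (h : M.S U v = 0) : v = 0 := by
  have h1 := M.S_isometry U v
  rw [h, norm_zero] at h1
  exact norm_eq_zero.mp h1.symm

theorem pS_one (v : F) : M.S 1 v = v := by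
  have h1 : M.S 1 v = M.S 1 (M.S 1 v) := by
    conv_lhs => rw [← mul_one (1 : BFSS.SU N)]
    exact M.S_mul 1 1 v
  have h2 : M.S 1 (v - M.S 1 v) = 0 := by
    rw [map_sub, ← h1, sub_self]
  have h3 := pS_inj M 1 h2
  exact (sub_eq_zero.mp h3).symm

theorem pS_inv (U : BFSS.SU N) (v : F) : M.S U (M.S U⁻¹ v) = v := by
  rw [← M.S_mul, mul_inv_cancel, pS_one]

theorem pS_inv' (U : BFSS.SU N) (v : F) : M.S U⁻¹ (M.S U v) = v := by
  rw [← M.S_mul, inv_mul_cancel, pS_one]

/-- the conjugate of an operator that anticommutes with the generators -/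
theorem pS_conj (U : BFSS.SU N) (X : F →L[ℂ] F) (hX : ∀ α A v, X (M.θ α A v) = -M.θ α A (X v))
    (α : Fin 16) (A : Fin d) (v : F) :
    M.S U (X (M.S U⁻¹ (M.θ α A v))) = -M.θ α A (M.S U (X (M.S U⁻¹ v))) := by
  have key : ∀ w, M.θ α A (M.S U w) =
      M.S U (∑ B, (BFSS.adCoeff M.T U⁻¹ B A : ℂ) • M.θ α B w) := by
    intro w
    have h1 := M.S_rotates U⁻¹ α A (M.S U w)
    rw [pS_inv'] at h1
    rw [← h1, pS_inv]
  rw [M.S_rotates U⁻¹ α A v, key, map_sum, map_sum, map_sum, ← Finset.sum_neg_distrib]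
  refine Finset.sum_congr rfl fun B _ => ?_
  rw [map_smul, hX, smul_neg, map_neg]

variable {M}

theorem pc_exists {Γ : F →L[ℂ] F} (hanti : ∀ α A v, Γ (M.θ α A v) = -M.θ α A (Γ v))
    (huniq : ∀ Γ' : F →L[ℂ] F, (∀ α A v, Γ' (M.θ α A v) = -M.θ α A (Γ' v)) → ∃ c : ℂ, Γ' = c • Γ)
    (U : BFSS.SU N) : ∃ c : ℂ, ∀ v, M.S U (Γ v) = c • Γ (M.S U v) := by
  obtain ⟨c, hc⟩ := huniq ((M.S U).comp (Γ.comp (M.S U⁻¹))) (fun α A v => pS_conj M U Γ hanti α A v)
  refine ⟨c, fun v => ?_⟩
  have h1 := congrArg (fun X : F →L[ℂ] F => X (M.S U v)) hc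
  change M.S U (Γ (M.S U⁻¹ (M.S U v))) = c • Γ (M.S U v) at h1
  rw [pS_inv'] at h1
  exact h1

/-- the sign is trivial on squares -/
theorem pc_square {Γ : F →L[ℂ] F} (hsq : ∀ v, Γ (Γ v) = v)
    (hanti : ∀ α A v, Γ (M.θ α A v) = -M.θ α A (Γ v))
    (huniq : ∀ Γ' : F →L[ℂ] F, (∀ α A v, Γ' (M.θ α A v) = -M.θ α A (Γ' v)) → ∃ c : ℂ, Γ' = c • Γ)
    (V : BFSS.SU N) (v : F) : M.S (V * V) (Γ v) = Γ (M.S (V * V) v) := by
  obtain ⟨c, hc⟩ := pc_exists hanti huniq V
  obtain ⟨v0, hv0⟩ := M.nontrivial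
  have h1 : M.S V v0 = (c * c) • M.S V v0 := by
    have := hc (Γ v0)
    rw [hsq, hc, map_smul, hsq, smul_smul] at this
    exact this
  have h2 : (c * c - 1) • M.S V v0 = 0 := by
    rw [sub_smul, one_smul, ← h1, sub_self]
  have h3 : c * c - 1 = 0 := by
    rcases smul_eq_zero.mp h2 with h | h
    · exact h
    · exact absurd (pS_inj M V h) hv0
  have h4 : c * c = 1 := sub_eq_zero.mp h3
  rw [M.S_mul, M.S_mul, hc, map_smul, hc, smul_smul, h4, one_smul]

/-- scalar matrices act by scalars -/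
theorem pc_scalar {Γ : F →L[ℂ] F} (U : BFSS.SU N) (z : ℂ)
    (hz : U.val = z • (1 : Matrix (Fin N) (Fin N) ℂ)) (hz1 : z * (starRingEnd ℂ) z = 1) (v : F) :
    M.S U (Γ v) = Γ (M.S U v) := by
  have hco : ∀ A B, BFSS.adCoeff M.T U B A = if B = A then 1 else 0 := by
    intro A B
    rw [BFSS.adCoeff, hz]
    have h1 : M.T B * (z • (1 : Matrix (Fin N) (Fin N) ℂ) * M.T A *
        (z • (1 : Matrix (Fin N) (Fin N) ℂ)).conjTranspose) = M.T B * M.T A := by
      rw [Matrix.conjTranspose_smul, Matrix.conjTranspose_one, Matrix.smul_mul, Matrix.one_mul,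
        Matrix.smul_mul, Matrix.mul_smul, Matrix.mul_smul, Matrix.mul_one, Matrix.mul_smul,
        smul_smul]
      have h2 : z * star z = 1 := hz1
      rw [h2, one_smul]
    rw [h1, M.T_orthonormal]
    split_ifs <;> simp
  obtain ⟨s, hs⟩ := py_schur M (M.S U) (fun α A w => by
    rw [M.S_rotates]
    rw [Finset.sum_eq_single A]
    · rw [hco, if_pos rfl, Complex.ofReal_one, one_smul]
    · intro B _ hB
      rw [hco, if_neg hB, Complex.ofReal_zero, zero_smul]
    · intro h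
      exact absurd (Finset.mem_univ _) h)
  rw [hs, hs, map_smul]

end Conj

section Log

open scoped Matrix.Norms.L2Operator

/-- logarithm of a unitary matrix -/
theorem py_log {N : ℕ} (U : Matrix (Fin N) (Fin N) ℂ)
    (hU : U ∈ unitary (Matrix (Fin N) (Fin N) ℂ)) :
    ∃ K : Matrix (Fin N) (Fin N) ℂ, K.IsHermitian ∧ NormedSpace.exp (Complex.I • K) = U := by
  have hnorm : IsStarNormal U := by
    refine ⟨?_⟩
    rw [Commute, SemiconjBy, (Unitary.mem_iff.1 hU).1, (Unitary.mem_iff.1 hU).2]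
  have hc : ContinuousOn Complex.arg (spectrum ℂ U) :=
    (Matrix.finite_spectrum U).continuousOn _
  refine ⟨cfc (fun z : ℂ => (Complex.arg z : ℂ)) U, ?_, ?_⟩
  · exact IsSelfAdjoint.cfc_arg U
  · rw [← CFC.exp_eq_normedSpace_exp (𝕜 := ℂ), ← cfc_comp_smul ..,
      ← cfc_comp' ..]
    conv_rhs => rw [← cfc_id' ℂ U]
    refine cfc_congr fun y hy ↦ ?_
    have hy₁ : ‖y‖ = 1 := spectrum.norm_eq_one_of_unitary hU hy
    have hy0 : y ≠ 0 := by
      rintro rfl
      simp at hy₁
    have : Complex.I * y.arg = Complex.log y :=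
      Complex.ext (by simp [Complex.log_re, hy₁]) (by simp [Complex.log_im])
    simpa [← Complex.exp_eq_exp_ℂ, this] using Complex.exp_log hy0

/-- determinant of the exponential of a skew-Hermitian matrix -/
theorem py_det {N : ℕ} (H : Matrix (Fin N) (Fin N) ℂ) (hH : H.IsHermitian) :
    (NormedSpace.exp (Complex.I • H)).det = Complex.exp (Complex.I * H.trace) := by
  obtain ⟨V, hV⟩ : ∃ V : Matrix (Fin N) (Fin N) ℂ,
    V = (hH.eigenvectorUnitary : Matrix (Fin N) (Fin N) ℂ) := ⟨_, rfl⟩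
  have hVm := hH.eigenvectorUnitary.2
  rw [← hV] at hVm
  have e1 : star V * V = 1 := (Unitary.mem_iff.1 hVm).1
  have e2 : V * star V = 1 := (Unitary.mem_iff.1 hVm).2
  have hinv : V⁻¹ = star V := Matrix.inv_eq_right_inv e2
  have hunit : IsUnit V := ⟨⟨V, star V, e2, e1⟩, rfl⟩
  have hs : H = V * Matrix.diagonal (fun i => ((hH.eigenvalues i : ℝ) : ℂ)) * star V := by
    have := hH.spectral_theorem
    rw [Unitary.conjStarAlgAut_apply] at this
    rw [hV]
    exact this
  have h1 : Complex.I • H =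
      V * (Complex.I • Matrix.diagonal (fun i => ((hH.eigenvalues i : ℝ) : ℂ))) * V⁻¹ := by
    rw [hinv, Matrix.mul_smul, Matrix.smul_mul, ← hs]
  rw [h1, Matrix.exp_conj _ _ hunit, Matrix.det_mul, Matrix.det_mul]
  have h2 : V.det * (V⁻¹).det = 1 := by
    rw [← Matrix.det_mul, hinv, e2, Matrix.det_one]
  have h3 : Complex.I • Matrix.diagonal (fun i => ((hH.eigenvalues i : ℝ) : ℂ)) =
      Matrix.diagonal (fun i => Complex.I * ((hH.eigenvalues i : ℝ) : ℂ)) := by
    rw [← Matrix.diagonal_smul]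
    rfl
  rw [h3, Matrix.exp_diagonal, Matrix.det_diagonal]
  have h4 : ∀ i, NormedSpace.exp (fun i => Complex.I * ((hH.eigenvalues i : ℝ) : ℂ)) i =
      Complex.exp (Complex.I * ((hH.eigenvalues i : ℝ) : ℂ)) := by
    intro i
    rw [Pi.coe_exp, ← Complex.exp_eq_exp_ℂ]
  rw [Finset.prod_congr rfl fun i _ => h4 i, ← Complex.exp_sum, ← Finset.mul_sum,
    hH.trace_eq_sum_eigenvalues]
  calc V.det * Complex.exp _ * (V⁻¹).det = V.det * (V⁻¹).det * Complex.exp _ := by ring
    _ = _ := by rw [h2, one_mul]; rfl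

theorem py_scalar {N : ℕ} (c : ℂ) :
    NormedSpace.exp (c • (1 : Matrix (Fin N) (Fin N) ℂ)) = Complex.exp c • 1 := by
  rw [Matrix.smul_one_eq_diagonal, Matrix.exp_diagonal, Matrix.smul_one_eq_diagonal]
  congr 1
  funext j
  rw [Pi.coe_exp, ← Complex.exp_eq_exp_ℂ]

/-- exponentials of skew-Hermitian matrices are unitary -/
theorem py_unit {N : ℕ} (H : Matrix (Fin N) (Fin N) ℂ) (hH : H.IsHermitian) :
    NormedSpace.exp (Complex.I • H) ∈ unitary (Matrix (Fin N) (Fin N) ℂ) := by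
  have h1 : (NormedSpace.exp (Complex.I • H)).conjTranspose = NormedSpace.exp (-(Complex.I • H)) := by
    rw [← Matrix.exp_conjTranspose, Matrix.conjTranspose_smul, hH.eq]
    congr 1
    rw [← neg_smul]
    congr 1
    simp
  have h2 : Commute (Complex.I • H) (-(Complex.I • H)) := (Commute.refl _).neg_right
  have h3 : NormedSpace.exp (Complex.I • H) * NormedSpace.exp (-(Complex.I • H)) = 1 := by
    rw [← Matrix.exp_add_of_commute _ _ h2, add_neg_cancel, NormedSpace.exp_zero]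
  have h4 : NormedSpace.exp (-(Complex.I • H)) * NormedSpace.exp (Complex.I • H) = 1 := by
    rw [← Matrix.exp_add_of_commute _ _ h2.symm, neg_add_cancel, NormedSpace.exp_zero]
  rw [Unitary.mem_iff]
  change (NormedSpace.exp (Complex.I • H)).conjTranspose * _ = 1 ∧
    _ * (NormedSpace.exp (Complex.I • H)).conjTranspose = 1
  rw [h1]
  exact ⟨h4, h3⟩

end Log

/-- every special unitary matrix is a scalar times a square -/
theorem py_decomp {N : ℕ} (hN : 0 < N) (U : BFSS.SU N) :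
    ∃ (V Z : BFSS.SU N) (z : ℂ), U = Z * (V * V) ∧
      Z.val = z • (1 : Matrix (Fin N) (Fin N) ℂ) ∧ z * (starRingEnd ℂ) z = 1 := by
  obtain ⟨hU1, hU2⟩ := Matrix.mem_specialUnitaryGroup_iff.mp U.2
  obtain ⟨K, hK, hKU⟩ := py_log U.val hU1
  have hNc : (N : ℂ) ≠ 0 := Nat.cast_ne_zero.mpr hN.ne'
  have htr : (starRingEnd ℂ) K.trace = K.trace := by
    have h1 : K.conjTranspose.trace = star K.trace := Matrix.trace_conjTranspose K
    rw [hK.eq] at h1
    exact h1.symm
  have hdet : Complex.exp (Complex.I * K.trace) = 1 := by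
    rw [← py_det K hK, hKU]
    exact hU2
  set t : ℂ := K.trace / N with ht
  have htc : (starRingEnd ℂ) t = t := by
    rw [ht, map_div₀, htr, Complex.conj_natCast]
  have h1H : (t • (1 : Matrix (Fin N) (Fin N) ℂ)).IsHermitian := by
    rw [Matrix.IsHermitian, Matrix.conjTranspose_smul, Matrix.conjTranspose_one]
    congr 1
  set H : Matrix (Fin N) (Fin N) ℂ := (1 / 2 : ℂ) • (K - t • (1 : Matrix (Fin N) (Fin N) ℂ)) with hHd
  have hH : H.IsHermitian := by
    rw [Matrix.IsHermitian, hHd, Matrix.conjTranspose_smul, (hK.sub h1H).eq]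
    congr 1
    simp
  have hHt : H.trace = 0 := by
    rw [hHd, Matrix.trace_smul, Matrix.trace_sub, Matrix.trace_smul, Matrix.trace_one,
      Fintype.card_fin, smul_eq_mul, smul_eq_mul, ht, div_mul_cancel₀ _ hNc, sub_self, mul_zero]
  have hVdet : (NormedSpace.exp (Complex.I • H)).det = 1 := by
    rw [py_det H hH, hHt, mul_zero, Complex.exp_zero]
  have hZu : NormedSpace.exp (Complex.I • (t • (1 : Matrix (Fin N) (Fin N) ℂ))) ∈
      unitary (Matrix (Fin N) (Fin N) ℂ) := py_unit _ h1H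
  have hZdet : (NormedSpace.exp (Complex.I • (t • (1 : Matrix (Fin N) (Fin N) ℂ)))).det = 1 := by
    rw [py_det _ h1H, Matrix.trace_smul, Matrix.trace_one, Fintype.card_fin, smul_eq_mul, ht,
      div_mul_cancel₀ _ hNc, hdet]
  have hZs : NormedSpace.exp (Complex.I • (t • (1 : Matrix (Fin N) (Fin N) ℂ))) =
      Complex.exp (Complex.I * t) • 1 := by
    rw [smul_smul, py_scalar]
  refine ⟨⟨_, Matrix.mem_specialUnitaryGroup_iff.mpr ⟨py_unit H hH, hVdet⟩⟩,
    ⟨_, Matrix.mem_specialUnitaryGroup_iff.mpr ⟨hZu, hZdet⟩⟩, Complex.exp (Complex.I * t), ?_,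
    hZs, ?_⟩
  · apply Subtype.ext
    change U.val = NormedSpace.exp (Complex.I • (t • (1 : Matrix (Fin N) (Fin N) ℂ))) *
      (NormedSpace.exp (Complex.I • H) * NormedSpace.exp (Complex.I • H))
    have hc1 : Commute (Complex.I • H) (Complex.I • H) := Commute.refl _
    have hsum : Complex.I • H + Complex.I • H =
        Complex.I • (K - t • (1 : Matrix (Fin N) (Fin N) ℂ)) := by
      rw [← smul_add, hHd, ← add_smul]
      norm_num
    have hc2 : Commute (Complex.I • (t • (1 : Matrix (Fin N) (Fin N) ℂ)))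
        (Complex.I • (K - t • (1 : Matrix (Fin N) (Fin N) ℂ))) := by
      rw [smul_smul]
      exact (Commute.one_left _).smul_left _
    rw [← Matrix.exp_add_of_commute _ _ hc1, hsum, ← Matrix.exp_add_of_commute _ _ hc2, ← smul_add,
      add_sub_cancel, hKU]
  · rw [← Complex.exp_conj, map_mul, htc, Complex.conj_I, ← Complex.exp_add]
    simp

/-- **Parity of the BFSS Clifford module.** There is a self-adjoint involution `Γ` that
anticommutes with all generators and commutes with the gauge group; it is unique up to a scalar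
among the operators that anticommute with the generators. -/
theorem parity {N d : ℕ} {F : Type*} [NormedAddCommGroup F] [InnerProductSpace ℂ F]
    (M : BFSS.Model N d F) :
    ∃ Γ : F →L[ℂ] F, (∀ v, Γ (Γ v) = v) ∧ (∀ v w, inner ℂ (Γ v) w = inner ℂ v (Γ w)) ∧
      (∀ α A v, Γ (M.θ α A v) = - M.θ α A (Γ v)) ∧ (∀ U v, Γ (M.S U v) = M.S U (Γ v)) ∧
      (∀ Γ' : F →L[ℂ] F, (∀ α A v, Γ' (M.θ α A v) = - M.θ α A (Γ' v)) → ∃ c : ℂ, Γ' = c • Γ) := by
  obtain ⟨Γ, h1, h2, h3, h4⟩ := py_exists M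
  refine ⟨Γ, h1, h2, h3, fun U v => ?_, h4⟩
  rcases Nat.eq_zero_or_pos N with hN | hN
  · subst hN
    have hU : U = 1 := Subtype.ext (Matrix.ext fun i _ => i.elim0)
    rw [hU, pS_one, pS_one]
  · obtain ⟨V, Z, z, hUV, hZ, hz⟩ := py_decomp hN U
    rw [hUV, M.S_mul, M.S_mul Z (V * V) (Γ v), pc_square h1 h3 h4 V, pc_scalar (Γ := Γ) Z z hZ hz]

end Vale.Agent.P353.H839
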